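import Vale.Agent.P067.Full.Step.Theta

/-!
# P067 full answer, step: classes of cycles and the action on them
-/

open Finset

noncomputable section

namespace Vale.Agent.P067.Full.Step

open scoped Classical

variable {n M p m : ℕ} (S : Finset (Fin M)) (c : ℕ)

/-- The cycles of `XS S`. -/
def cycles : Submodule (ZMod 2) (Ch (Vx n M p m)) where
  carrier := {z | Sup (XS n M p m S) c z ∧ bd z = 0}
  zero_mem' := ⟨Sup.zero, map_zero _⟩
  add_mem' h h' := ⟨h.1.add h'.1, by rw [map_add, h.2, h'.2, add_zero]⟩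
  smul_mem' a _ h := ⟨h.1.smul a, by rw [map_smul, h.2, smul_zero]⟩

/-- The bounding cycles. -/
def bounds : Submodule (ZMod 2) (cycles (n := n) (p := p) (m := m) S c) where
  carrier := {z | Bnd (XS n M p m S) c (z : Ch (Vx n M p m))}
  zero_mem' := Bnd.zero
  add_mem' h h' := Bnd.add h h'
  smul_mem' a z h := by
    obtain ⟨w, hw, hb⟩ := h
    exact ⟨a • w, hw.smul a, by rw [map_smul, hb]; rfl⟩

/-- The classes of cycles. -/
abbrev Hom (n M p m : ℕ) (S : Finset (Fin M)) (c : ℕ) : Type :=
  cycles (n := n) (p := p) (m := m) S c ⧸ bounds (n := n) (p := p) (m := m) S c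

variable {S c}

theorem xmul_mem_cycles {g : Ga n M p m} (hg : g ∈ GS n M p m S) {z : Ch (Vx n M p m)}
    (hz : z ∈ cycles S c) : xmul g z ∈ cycles S c :=
  ⟨hz.1.chMap _ fun _ hs _ _ => Move.image_vmul_mem hg hs, by
    rw [xmul, chMap_bd, hz.2, map_zero]⟩

theorem bounds_le_comap (g : GS n M p m S) :
    bounds (n := n) (p := p) (m := m) S c ≤
      (bounds S c).comap ((xmul (g : Ga n M p m)).restrict fun _ hz => xmul_mem_cycles g.2 hz) :=
  fun _ hz => Move.bnd_xmul g.2 hz

/-- The action on classes. -/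
def act (g : GS n M p m S) : Module.End (ZMod 2) (Hom n M p m S c) :=
  Submodule.mapQ _ _ ((xmul (g : Ga n M p m)).restrict fun _ hz => xmul_mem_cycles g.2 hz)
    (bounds_le_comap g)

/-- The class of a cycle. -/
def cls (z : cycles (n := n) (p := p) (m := m) S c) : Hom n M p m S c :=
  Submodule.Quotient.mk z

theorem act_cls (g : GS n M p m S) (z : cycles (n := n) (p := p) (m := m) S c) :
    act g (cls z) = cls ⟨xmul (g : Ga n M p m) z, xmul_mem_cycles g.2 z.2⟩ :=
  rfl

theorem cls_eq_iff (z z' : cycles (n := n) (p := p) (m := m) S c) :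
    cls z = cls z' ↔
      Bnd (XS n M p m S) c ((z : Ch (Vx n M p m)) + (z' : Ch (Vx n M p m))) := by
  have e : (z : Ch (Vx n M p m)) + (z' : Ch (Vx n M p m)) = ((z - z' : cycles S c) : Ch _) := by
    rw [Submodule.coe_sub, eq_sub_iff_add_eq, add_assoc, ch_add_self, add_zero]
  rw [cls, cls, Submodule.Quotient.eq, e]
  rfl

theorem act_fixed_iff (g : GS n M p m S) (z : cycles (n := n) (p := p) (m := m) S c) :
    act g (cls z) = cls z ↔
      Bnd (XS n M p m S) c (xmul (g : Ga n M p m) z + (z : Ch (Vx n M p m))) := by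
  rw [act_cls, cls_eq_iff]

theorem act_mul (g h : GS n M p m S) : act (c := c) (g * h) = act g * act h := by
  refine LinearMap.ext fun w => Submodule.Quotient.induction_on _ w fun z => ?_
  exact congrArg Submodule.Quotient.mk (Subtype.ext (Move.xmul_xmul _ _ _).symm)

theorem act_one : act (n := n) (p := p) (m := m) (S := S) (c := c) 1 = 1 := by
  refine LinearMap.ext fun w => Submodule.Quotient.induction_on _ w fun z => ?_
  exact congrArg Submodule.Quotient.mk (Subtype.ext (Move.xmul_one _))

end Vale.Agent.P067.Full.Step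

end
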