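import Mathlib

/-!
# P067 full answer, step: a vector fixed by averages over all hyperplanes is fixed

For an additive group `A` of exponent `p`, `p` odd, inside a group `V` with a separating family of
maps to `ZMod p`, acting on an `F_2` space: the indicator of `0` is a combination of indicators of
kernels of such maps.
-/

open Finset

noncomputable section

namespace Vale.Agent.P067.Full.Step

open scoped Classical

variable {p : ℕ} [Fact p.Prime] {V : Type} [AddCommGroup V]

/-- The indicator of a kernel. -/
def ind (φ : V →+ ZMod p) (a : V) : ZMod 2 := if φ a = 0 then 1 else 0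

theorem ind_mul (hp : Odd p) (φ ν : V →+ ZMod p) (a : V) :
    ind ν a * ind φ a = (∑ c : ZMod p, ind (ν + c • φ) a) + ind φ a + ind (0 : V →+ ZMod p) a := by
  have hp2 : (p : ZMod 2) = 1 := ZMod.natCast_eq_one_iff_odd.2 hp
  simp only [ind, AddMonoidHom.add_apply, AddMonoidHom.smul_apply, smul_eq_mul,
    AddMonoidHom.zero_apply, if_true]
  by_cases hv : φ a = 0
  · by_cases hu : ν a = 0
    · simp only [hu, hv, mul_zero, add_zero, if_true, sum_const, card_univ, ZMod.card, nsmul_eq_mul,
        hp2, mul_one]
      decide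
    · simp only [hu, hv, mul_zero, add_zero, if_true, if_false, sum_const, nsmul_zero, zero_mul]
      decide
  · have h : ∑ c : ZMod p, (if ν a + c * φ a = 0 then (1 : ZMod 2) else 0) = 1 := by
      rw [Finset.sum_eq_single (-ν a / φ a)]
      · rw [if_pos (by field_simp; ring)]
      · intro c _ hc
        refine if_neg fun h => hc ?_
        rw [eq_div_iff hv]
        linear_combination h
      · intro h
        exact absurd (mem_univ _) h
    rw [h, if_neg hv, mul_zero, add_zero]
    decide

variable {W : Type} [AddCommGroup W] [Module (ZMod 2) W] {A : AddSubgroup V} [Fintype A]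
  (ψ : A → Module.End (ZMod 2) W)

/-- The weighted sum of the translates of a vector. -/
def avg (f : V → ZMod 2) : Module.End (ZMod 2) W :=
  ∑ a : A, f a • ψ a

variable (hadd : ∀ a b, ψ (a + b) = ψ a * ψ b)

include hadd in
/-- An average over a kernel is fixed once it is fixed by one element outside. -/
theorem avg_fixed (φ : V →+ ZMod p) (y : A) (hy : φ y ≠ 0 ∨ ∀ a : A, φ a = 0)
    (x : W) (hx : ψ y x = x) (a : A) :
    ψ a (avg ψ (ind φ) x) = avg ψ (ind φ) x := by
  have hker : ∀ b : A, φ b = 0 → ψ b (avg ψ (ind φ) x) = avg ψ (ind φ) x := by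
    intro b hb
    simp only [avg, LinearMap.sum_apply, map_sum, LinearMap.smul_apply, map_smul]
    refine Fintype.sum_equiv (Equiv.addLeft b) _ _ fun c => ?_
    have e : ind φ (((b + c : A)) : V) = ind φ (c : V) := by
      simp [ind, hb]
    simp only [Equiv.coe_addLeft]
    rw [e, hadd]
    rfl
  rcases hy with hy | hy
  swap
  · exact hker a (hy a)
  set k : ℕ := (φ a / φ y).val
  have hfix : ∀ j : ℕ, 0 < j → ψ (j • y) (avg ψ (ind φ) x) = avg ψ (ind φ) x := by
    have h1 : ψ y (avg ψ (ind φ) x) = avg ψ (ind φ) x := by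
      simp only [avg, LinearMap.sum_apply, map_sum, LinearMap.smul_apply, map_smul]
      refine Finset.sum_congr rfl fun c _ => ?_
      rw [← Module.End.mul_apply, ← hadd, add_comm y c, hadd, Module.End.mul_apply, hx]
    intro j hj
    induction j, hj using Nat.le_induction with
    | base => rwa [one_nsmul]
    | succ j _ ih => rw [succ_nsmul, hadd, Module.End.mul_apply, h1, ih]
  have hb : φ ((a - k • y : A) : V) = 0 := by
    push_cast
    rw [map_sub, map_nsmul, nsmul_eq_mul, sub_eq_zero]
    simp only [k, ZMod.natCast_val, ZMod.cast_id]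
    field_simp
  rcases Nat.eq_zero_or_pos k with hk | hk
  · rw [hk, zero_smul, sub_zero] at hb
    exact hker a hb
  · rw [← sub_add_cancel a (k • y), hadd, Module.End.mul_apply, hfix k hk, hker _ hb]

/-- A vector all of whose kernel averages are fixed is fixed. -/
theorem fixed_of_avg (hp : Odd p) (h0 : ψ 0 = 1) (E : Finset (V →+ ZMod p))
    (hE : ∀ v : V, (∀ φ ∈ E, φ v = 0) → v = 0) (x : W)
    (h : ∀ (φ : V →+ ZMod p) (a : A), ψ a (avg ψ (ind φ) x) = avg ψ (ind φ) x) (a : A) :
    ψ a x = x := by
  have key : ∀ (S : Finset (V →+ ZMod p)) (ν : V →+ ZMod p),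
      ψ a (avg ψ (fun b => ind ν b * ∏ φ ∈ S, ind φ b) x) =
        avg ψ (fun b => ind ν b * ∏ φ ∈ S, ind φ b) x := by
    intro S
    induction S using Finset.induction_on with
    | empty => intro ν; simpa using h ν a
    | @insert φ S hφ ih =>
      intro ν
      have e : avg ψ (fun b => ind ν b * ∏ χ ∈ insert φ S, ind χ b) =
          (∑ c : ZMod p, avg ψ (fun b => ind (ν + c • φ) b * ∏ χ ∈ S, ind χ b)) +
            avg ψ (fun b => ind φ b * ∏ χ ∈ S, ind χ b) +
            avg ψ (fun b => ind (0 : V →+ ZMod p) b * ∏ χ ∈ S, ind χ b) := by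
        simp only [avg, Finset.prod_insert hφ, ← mul_assoc, ind_mul hp, add_mul, add_smul,
          Finset.sum_mul, Finset.sum_smul, Finset.sum_add_distrib]
        rw [Finset.sum_comm]
      rw [e]
      simp only [LinearMap.add_apply, LinearMap.sum_apply, map_add, map_sum, ih]
  have e0 : avg ψ (fun b => ind (0 : V →+ ZMod p) b * ∏ φ ∈ E, ind φ b) = ψ 0 := by
    rw [avg, Finset.sum_eq_single (0 : A)]
    · simp [ind]
    · intro b _ hb
      obtain ⟨φ, hφE, hφ⟩ : ∃ φ ∈ E, φ (b : V) ≠ 0 := by
        by_contra hc
        push Not at hc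
        exact hb (Subtype.ext (hE _ hc))
      rw [Finset.prod_eq_zero (i := φ) hφE (by simp [ind, hφ]), mul_zero, zero_smul]
    · intro hh
      exact absurd (mem_univ _) hh
  have hk := key E 0
  rw [e0, h0] at hk
  exact hk

end Vale.Agent.P067.Full.Step

end
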