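import Vale.Agent.P067.Full.Group.Basic
import Vale.Agent.P067.Full.Step.Class
import Vale.Agent.P067.Full.Step.Fixed

/-!
# P067 full answer, step: one layer of the filtration acts trivially on classes
-/

open Finset

noncomputable section

namespace Vale.Agent.P067.Full.Step

open scoped Classical

variable {n M p m : ℕ}

/-- The elements of weight at least `x` act trivially on classes. -/
def Triv (n M p m : ℕ) (S : Finset (Fin M)) (c x : ℕ) : Prop :=
  ∀ y ∈ GS n M p m S, y ∈ Gx n M p m x → ∀ z ∈ cycles (n := n) (p := p) (m := m) S c,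
    Bnd (XS n M p m S) c (xmul y z + z)

theorem one_mem_Gx (x : ℕ) : (1 : Ga n M p m) ∈ Gx n M p m x :=
  ⟨Grp.GSet_one univ, fun i j a b k _ => by simp⟩

theorem GS_le_Gx_one (h1 : GSet n M p m univ ⊆ Gx n M p m 1) [NeZero p] {S : Finset (Fin M)}
    {g : Ga n M p m} (hg : g ∈ GS n M p m S) : g ∈ Gx n M p m 1 :=
  h1 ⟨((Grp.mem_GS S g).1 hg).1, fun i j h => absurd h (by simp), ((Grp.mem_GS S g).1 hg).2.2⟩

/-- The coordinate maps of a layer. -/
def coord (p : ℕ) (t : Fin n × Fin M × Fin M) :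
    (Fin n → Fin M → Fin M → ZMod p) →+ ZMod p :=
  (Pi.evalAddMonoidHom (fun _ : Fin M => ZMod p) t.2.2).comp
    ((Pi.evalAddMonoidHom (fun _ : Fin M => Fin M → ZMod p) t.2.1).comp
      (Pi.evalAddMonoidHom (fun _ : Fin n => Fin M → Fin M → ZMod p) t.1))

theorem triv_step [Fact p.Prime] (hp : Odd p) {S : Finset (Fin M)} {c x : ℕ}
    (hmul : ∀ g ∈ Gx n M p m x, ∀ h ∈ Gx n M p m x, g * h ∈ Gx n M p m x)
    (hlam : ∀ g ∈ Gx n M p m x,
      (∀ h ∈ Gx n M p m x, lam n M p m x (g * h) = lam n M p m x g + lam n M p m x h) ∧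
      (lam n M p m x g = 0 ↔ g ∈ Gx n M p m (x + 1)))
    (htriv : Triv n M p m S c (x + 1))
    (hdec : ∀ φ : (Fin n → Fin M → Fin M → ZMod p) →+ ZMod p,
      (∃ y ∈ GS n M p m S, y ∈ Gx n M p m x ∧ φ (lam n M p m x y) ≠ 0) →
      ∀ z ∈ cycles (n := n) (p := p) (m := m) S c,
        z ∈ Submodule.span (ZMod 2) {u | u ∈ cycles (n := n) (p := p) (m := m) S c ∧
          ∃ y ∈ GS n M p m S, y ∈ Gx n M p m x ∧ φ (lam n M p m x y) ≠ 0 ∧
            Bnd (XS n M p m S) c (xmul y u + u)}) :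
    Triv n M p m S c x := by
  have hcl := fun g => Grp.mem_closure_iff (one_mem_Gx (n := n) (M := M) (p := p) (m := m) x) hmul g
  have hinv : ∀ g ∈ Gx n M p m x, g⁻¹ ∈ Gx n M p m x :=
    fun g hg => (hcl _).1 (inv_mem ((hcl _).2 hg))
  have hlam1 : lam n M p m x (1 : Ga n M p m) = 0 :=
    (hlam 1 (one_mem_Gx x)).2.2 (one_mem_Gx (x + 1))
  -- elements with the same leading term act in the same way
  have heq : ∀ g h : GS n M p m S, (g : Ga n M p m) ∈ Gx n M p m x →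
      (h : Ga n M p m) ∈ Gx n M p m x → lam n M p m x g = lam n M p m x h →
      act (c := c) g = act h := by
    intro g h hg hh hgh
    have hd : ((g⁻¹ * h : GS n M p m S) : Ga n M p m) ∈ Gx n M p m x :=
      hmul _ (hinv _ hg) _ hh
    have hd0 : lam n M p m x ((g⁻¹ * h : GS n M p m S) : Ga n M p m) = 0 := by
      have h2 := (hlam _ hg).1 _ hd
      rw [show (g : Ga n M p m) * ((g⁻¹ * h : GS n M p m S) : Ga n M p m) = h by
        simp, ← hgh] at h2
      exact (left_eq_add.1 h2)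
    refine LinearMap.ext fun w => Submodule.Quotient.induction_on _ w fun z => ?_
    have h3 : act (g⁻¹ * h) (cls z) = cls z :=
      (act_fixed_iff _ z).2 (htriv _ (g⁻¹ * h).2 ((hlam _ hd).2.1 hd0) z z.2)
    show act g (cls z) = act h (cls z)
    conv_rhs => rw [show h = g * (g⁻¹ * h) by simp, act_mul, Module.End.mul_apply, h3]
  -- the group of leading terms
  let A : AddSubgroup (Fin n → Fin M → Fin M → ZMod p) :=
    { carrier := {v | ∃ g : GS n M p m S, (g : Ga n M p m) ∈ Gx n M p m x ∧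
        lam n M p m x g = v}
      zero_mem' := ⟨1, one_mem_Gx x, hlam1⟩
      add_mem' := by
        rintro _ _ ⟨g, hg, rfl⟩ ⟨h, hh, rfl⟩
        exact ⟨g * h, hmul _ hg _ hh, (hlam _ hg).1 _ hh⟩
      neg_mem' := by
        rintro _ ⟨g, hg, rfl⟩
        refine ⟨g⁻¹, hinv _ hg, eq_neg_of_add_eq_zero_right ?_⟩
        rw [← (hlam _ hg).1 _ (by simpa using hinv _ hg)]
        simpa using hlam1 }
  have : Fintype A := Fintype.ofFinite A
  choose rep hrep hreplam using fun a : A => a.2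
  let ψ : A → Module.End (ZMod 2) (Hom n M p m S c) := fun a => act (rep a)
  have h0 : ψ 0 = 1 := by
    rw [← act_one]
    exact heq _ _ (hrep 0) (one_mem_Gx x) ((hreplam 0).trans hlam1.symm)
  have hadd : ∀ a b, ψ (a + b) = ψ a * ψ b := fun a b => by
    simp only [ψ, ← act_mul]
    refine heq _ _ (hrep _) (hmul _ (hrep a) _ (hrep b)) ?_
    rw [hreplam, Subgroup.coe_mul, (hlam _ (hrep a)).1 _ (hrep b), hreplam, hreplam,
      AddSubgroup.coe_add]
  intro y hy hyx z hz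
  rw [← act_fixed_iff (⟨y, hy⟩ : GS n M p m S) ⟨z, hz⟩]
  let a₀ : A := ⟨lam n M p m x y, ⟨y, hy⟩, hyx, rfl⟩
  rw [heq ⟨y, hy⟩ (rep a₀) hyx (hrep a₀) (hreplam a₀).symm]
  refine fixed_of_avg ψ hp h0 (univ.image (coord p))
    (fun v hv => funext fun a => funext fun i => funext fun j =>
      hv _ (mem_image.2 ⟨(a, i, j), mem_univ _, rfl⟩)) (cls ⟨z, hz⟩) (fun φ a => ?_) a₀
  by_cases hφ : ∃ y ∈ GS n M p m S, y ∈ Gx n M p m x ∧ φ (lam n M p m x y) ≠ 0
  swap
  · push Not at hφ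
    refine avg_fixed ψ hadd φ 0 (Or.inr fun b => ?_) _ (by rw [h0]; rfl) a
    rw [← hreplam b]
    exact hφ _ (rep b).2 (hrep b)
  suffices h : ∀ u ∈ Submodule.span (ZMod 2) {u | u ∈ cycles (n := n) (p := p) (m := m) S c ∧
      ∃ y ∈ GS n M p m S, y ∈ Gx n M p m x ∧ φ (lam n M p m x y) ≠ 0 ∧
        Bnd (XS n M p m S) c (xmul y u + u)},
      ∃ hu : u ∈ cycles (n := n) (p := p) (m := m) S c,
        ψ a (avg ψ (ind φ) (cls ⟨u, hu⟩)) = avg ψ (ind φ) (cls ⟨u, hu⟩) by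
    obtain ⟨_, he⟩ := h z (hdec φ hφ z hz)
    exact he
  intro u hu
  induction hu using Submodule.span_induction with
  | mem u hu =>
    obtain ⟨hu, y', hy', hyx', hne, hfix⟩ := hu
    refine ⟨hu, avg_fixed ψ hadd φ ⟨lam n M p m x y', ⟨y', hy'⟩, hyx', rfl⟩ (Or.inl hne) _ ?_ a⟩
    show act _ (cls ⟨u, hu⟩) = _
    rw [heq _ ⟨y', hy'⟩ (hrep _) hyx' (hreplam _)]
    exact (act_fixed_iff _ _).2 hfix
  | zero =>
    refine ⟨zero_mem _, ?_⟩
    show ψ a (avg ψ (ind φ) (cls 0)) = avg ψ (ind φ) (cls 0)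
    simp [cls]
  | add u v _ _ hu hv =>
    obtain ⟨hu, eu⟩ := hu
    obtain ⟨hv, ev⟩ := hv
    refine ⟨add_mem hu hv, ?_⟩
    show ψ a (avg ψ (ind φ) (cls (⟨u, hu⟩ + ⟨v, hv⟩))) = avg ψ (ind φ) (cls (⟨u, hu⟩ + ⟨v, hv⟩))
    simp only [cls, Submodule.Quotient.mk_add, map_add] at eu ev ⊢
    rw [eu, ev]
  | smul r u _ hu =>
    obtain ⟨hu, eu⟩ := hu
    refine ⟨Submodule.smul_mem _ r hu, ?_⟩
    show ψ a (avg ψ (ind φ) (cls (r • ⟨u, hu⟩))) = avg ψ (ind φ) (cls (r • ⟨u, hu⟩))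
    simp only [cls, Submodule.Quotient.mk_smul, map_smul] at eu ⊢
    rw [eu]

end Vale.Agent.P067.Full.Step

end
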