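import Vale.Agent.P067.Full.Step.Theta

/-!
# P067 full answer, step: the complex of some colours is nonempty and connected
-/

open Finset

noncomputable section

namespace Vale.Agent.P067.Full.Step

open scoped Classical

section

variable {α : Type} [DecidableEq α]

theorem fills_zero (K : Set (Finset α)) (x : α) (hx : {x} ∈ K) : Fills K K 0 := by
  intro z hz _
  refine ⟨Finsupp.single {x} (z ∅), Sup.single _ hx (card_singleton x), ?_⟩
  rw [bd_single, sum_singleton, erase_singleton]
  ext s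
  by_cases hs : s = ∅
  · subst hs; simp
  · rw [Finsupp.single_eq_of_ne hs]
    by_contra h
    exact hs (card_eq_zero.1 (hz s (Finsupp.mem_support_iff.2 (Ne.symm h))).2)

theorem fills_one (K : Set (Finset α)) (x0 : α)
    (hconn : ∀ x, {x} ∈ K → Bnd K 1 (Finsupp.single {x} 1 + Finsupp.single {x0} 1)) :
    Fills K K 1 := by
  intro z hz hbd
  have hsum : ∑ s ∈ z.support, z s = 0 := by
    have h := congrArg (fun w : Ch α => w ∅) hbd
    rw [← Finsupp.sum_single z, Finsupp.sum, map_sum] at h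
    simp only [Finsupp.coe_finsetSum, Finset.sum_apply, Finsupp.coe_zero, Pi.zero_apply] at h
    rw [← h]
    refine sum_congr rfl fun s hs => ?_
    obtain ⟨x, rfl⟩ := card_eq_one.1 (hz s hs).2
    simp [bd_single]
  have key : z = ∑ s ∈ z.support, z s • (Finsupp.single s 1 + Finsupp.single {x0} 1) := by
    simp_rw [smul_add]
    rw [sum_add_distrib, ← sum_smul, hsum, zero_smul, add_zero]
    simp_rw [Finsupp.smul_single_one]
    exact (Finsupp.sum_single z).symm
  rw [key]
  refine Bnd.sum _ _ fun s hs => ?_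
  obtain ⟨x, rfl⟩ := card_eq_one.1 (hz s hs).2
  obtain ⟨w, hw, hwb⟩ := hconn x (hz {x} hs).1
  exact ⟨z {x} • w, hw.smul _, by rw [map_smul, hwb]⟩

theorem bnd_edge {K : Set (Finset α)} {x y : α} (h : {x, y} ∈ K) :
    Bnd K 1 (Finsupp.single {y} 1 + Finsupp.single {x} 1) := by
  by_cases hxy : x = y
  · subst hxy
    rw [ch_add_self]
    exact Bnd.zero
  · refine ⟨Finsupp.single {x, y} 1, Sup.single 1 h (card_pair hxy), ?_⟩
    rw [bd_single, sum_pair hxy, erase_insert (by simpa using hxy),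
      show ({x, y} : Finset α).erase y = {x} from by
        rw [pair_comm, erase_insert (by simpa using Ne.symm hxy)]]

theorem bnd_trans {K : Set (Finset α)} {x y z : Ch α} (h1 : Bnd K 1 (x + y))
    (h2 : Bnd K 1 (y + z)) : Bnd K 1 (x + z) := by
  have h := h1.add h2
  rwa [add_assoc, ← add_assoc y y z, ch_add_self, zero_add] at h

end

variable {n M p m : ℕ}

theorem pair_mem_XS {S : Finset (Fin M)} {g : Ga n M p m} (hg : g ∈ GS n M p m S) (u v : Fin n) :
    {vert g u, vert g v} ∈ XS n M p m S :=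
  ⟨g, hg, by simp [insert_subset_iff, mem_chamber_iff]⟩

theorem fills_low (hn : 2 ≤ n) {S : Finset (Fin M)}
    (hroots : Subgroup.closure (roots n M p m S) = GS n M p m S) {c : ℕ} (hc : c ≤ 1) :
    Fills (XS n M p m S) (XS n M p m S) c := by
  have v₀ : Fin n := ⟨0, by omega⟩
  interval_cases c
  · refine fills_zero _ (vert 1 v₀) ⟨1, one_mem _, ?_⟩
    simp [mem_chamber_iff]
  refine fills_one _ (vert 1 v₀) fun x hx => ?_
  obtain ⟨g, hg, hsub⟩ := hx
  obtain ⟨v, rfl⟩ := mem_chamber_iff.1 (hsub (mem_singleton_self x))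
  refine bnd_trans (bnd_edge (pair_mem_XS hg v₀ v)) ?_
  suffices h : g ∈ GS n M p m S ∧ ∀ h ∈ GS n M p m S,
      Bnd (XS n M p m S) 1 (Finsupp.single {vert (h * g) v₀} 1 + Finsupp.single {vert h v₀} 1) by
    simpa using h.2 1 (one_mem _)
  clear hsub
  rw [← hroots] at hg
  induction hg using Subgroup.closure_induction with
  | mem u hu =>
    obtain ⟨hu', a, r, i, hi, k, hk, he⟩ := hu
    have huS : u ∈ GS n M p m S := Subgroup.subset_closure hu'
    refine ⟨huS, fun h hh => ?_⟩
    have hsame : vert (h * u) (nxt a) = vert h (nxt a) := congrArg (Sigma.mk _)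
      (QuotientGroup.mk_mul_of_mem h (Move.root_mem_Kv hn he (Move.nxt_ne hn a).symm))
    refine bnd_trans (bnd_edge (pair_mem_XS (mul_mem hh huS) (nxt a) v₀)) ?_
    rw [hsame]
    exact bnd_edge (pair_mem_XS hh v₀ (nxt a))
  | one =>
    refine ⟨one_mem _, fun h _ => ?_⟩
    rw [mul_one, ch_add_self]
    exact Bnd.zero
  | mul a b _ _ ha hb =>
    refine ⟨mul_mem ha.1 hb.1, fun h hh => ?_⟩
    rw [← mul_assoc]
    exact bnd_trans (hb.2 (h * a) (mul_mem hh ha.1)) (ha.2 h hh)
  | inv a _ ha =>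
    refine ⟨inv_mem ha.1, fun h hh => ?_⟩
    have h1 := ha.2 (h * a⁻¹) (mul_mem hh (inv_mem ha.1))
    rwa [inv_mul_cancel_right, add_comm] at h1

end Vale.Agent.P067.Full.Step

end
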