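import Vale.Agent.P067.Full.Move

/-!
# P067 full answer, step: conjugation by a change of colours
-/

open Finset

noncomputable section

namespace Vale.Agent.P067.Full.Step

open scoped Classical

variable {n M p m : ℕ}

theorem exists_vert (x : Vx n M p m) : ∃ g v, vert g v = x :=
  ⟨x.2.out, x.1, Sigma.ext rfl (heq_of_eq (QuotientGroup.out_eq' x.2))⟩

theorem mem_chamber_iff {g : Ga n M p m} {x : Vx n M p m} :
    x ∈ chamber g ↔ ∃ v, vert g v = x := by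
  simp only [chamber, mem_map, mem_univ, true_and]; rfl

/-- Conjugation, on vertices. -/
def vth (θ : Ga n M p m) (x : Vx n M p m) : Vx n M p m :=
  vert (θ * x.2.out * θ⁻¹) x.1

/-- Conjugation, on chains. -/
def cth (θ : Ga n M p m) : Ch (Vx n M p m) →ₗ[ZMod 2] Ch (Vx n M p m) :=
  chMap (vth θ)

/-- `θ` normalises the vertex subgroups. -/
def Nml (θ : Ga n M p m) : Prop := ∀ v, ∀ g ∈ Kv n M p m v, θ * g * θ⁻¹ ∈ Kv n M p m v

variable {θ : Ga n M p m}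

theorem vth_vert (h : Nml θ) (g : Ga n M p m) (v : Fin n) :
    vth θ (vert g v) = vert (θ * g * θ⁻¹) v := by
  obtain ⟨k, hk⟩ := QuotientGroup.mk_out_eq_mul (Kv n M p m v) g
  show vert (θ * (g : Ga n M p m ⧸ Kv n M p m v).out * θ⁻¹) v = _
  rw [hk, show θ * (g * (k : Ga n M p m)) * θ⁻¹ = θ * g * θ⁻¹ * (θ * k * θ⁻¹) by group]
  exact congrArg (Sigma.mk v) (QuotientGroup.mk_mul_of_mem _ (h v k k.2))

theorem cth_cth_inv (h : Nml θ) (h' : Nml θ⁻¹) (z : Ch (Vx n M p m)) :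
    cth θ (cth θ⁻¹ z) = z := by
  rw [cth, cth, chMap_chMap]
  refine (chMap_congr fun _ _ x _ => ?_).trans (chMap_id z)
  obtain ⟨g, v, rfl⟩ := exists_vert x
  simp only [Function.comp_apply, id_eq, vth_vert h', vth_vert h]
  exact congrArg (vert · v) (by group)

theorem cth_xmul (h : Nml θ) (g : Ga n M p m) (z : Ch (Vx n M p m)) :
    cth θ (xmul g z) = xmul (θ * g * θ⁻¹) (cth θ z) := by
  rw [cth, xmul, xmul, chMap_chMap, chMap_chMap]
  refine chMap_congr fun _ _ x _ => ?_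
  obtain ⟨k, v, rfl⟩ := exists_vert x
  simp only [Function.comp_apply, Move.vmul_vert, vth_vert h]
  exact congrArg (vert · v) (by group)

variable {S : Finset (Fin M)}

theorem image_vth_mem (h : Nml θ) (hS : ∀ g ∈ GS n M p m S, θ * g * θ⁻¹ ∈ GS n M p m S)
    {s : Finset (Vx n M p m)} (hs : s ∈ XS n M p m S) : s.image (vth θ) ∈ XS n M p m S := by
  obtain ⟨g, hg, hsg⟩ := hs
  refine ⟨θ * g * θ⁻¹, hS g hg, fun x hx => ?_⟩
  obtain ⟨y, hy, rfl⟩ := mem_image.1 hx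
  obtain ⟨v, rfl⟩ := mem_chamber_iff.1 (hsg hy)
  exact mem_chamber_iff.2 ⟨v, (vth_vert h g v).symm⟩

theorem sup_cth (h : Nml θ) (hS : ∀ g ∈ GS n M p m S, θ * g * θ⁻¹ ∈ GS n M p m S) {c : ℕ}
    {z : Ch (Vx n M p m)} (hz : Sup (XS n M p m S) c z) :
    Sup (XS n M p m S) c (cth θ z) :=
  hz.chMap _ fun _ hs _ _ => image_vth_mem h hS hs

theorem bnd_cth (h : Nml θ) (hS : ∀ g ∈ GS n M p m S, θ * g * θ⁻¹ ∈ GS n M p m S) {c : ℕ}
    {z : Ch (Vx n M p m)} (hz : Bnd (XS n M p m S) c z) :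
    Bnd (XS n M p m S) c (cth θ z) := by
  obtain ⟨w, hw, rfl⟩ := hz
  exact ⟨cth θ w, sup_cth h hS hw, chMap_bd _ w⟩

end Vale.Agent.P067.Full.Step

end
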